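import Vale.Agent.P144L.S.Rk
import Vale.Agent.P144E.An1.Hol
import Vale.Agent.P144E.An2.Dec
import Vale.Agent.P144E.An3.Tele
import Vale.Agent.P144E.Ge1a.Main

/-!
The covering of a Lipschitz piece of the boundary by points of rank one.
-/

namespace Vale.Agent.P144L.S

open Finset Matrix Vale.Agent.P144Z

variable {M : ℕ}

theorem MuT.mono {Z Z' : Finset (Tor M)} {s s' m : ℕ} (h : MuT Z s m) (hZ : Z' ⊆ Z)
    (hs : s' ≤ s) : MuT Z' s' m := fun x =>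
  (card_le_card fun y hy => mem_filter.2
    ⟨hZ (mem_filter.1 hy).1, (mem_filter.1 hy).2.trans hs⟩).trans (h x)

theorem lip_move [NeZero M] {I : Finset (Tor M)} {r ρ : ℕ} {z b : Tor M} (h : LipAt I r z)
    (hb : tdist b z + ρ ≤ r) : LipAt I ρ b := by
  rw [← G.add_prj_lft b z]
  refine h.shift _ ?_
  have h2 : zd (lft (b - z)) 0 = tdist b z := by simp [zd, G.tdist_def]
  omega

theorem fib {Z Y : Finset (Tor M)} {π : Tor M → Tor M} {Ω : Tor M → Tor M → ℝ} {g : Tor M → ℝ}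
    {e : ℝ} (hπ : ∀ y ∈ Z, π y ∈ Y) (hg : ∀ b ∈ Y, 0 ≤ g b)
    (h : ∀ b ∈ Y, ∑ y ∈ Z.filter fun y => π y = b, Ω b y ≤ e) :
    ∑ y ∈ Z, Ω (π y) y * g (π y) ≤ e * ∑ b ∈ Y, g b := by
  rw [← sum_fiberwise_of_maps_to hπ, mul_sum]
  refine sum_le_sum fun b hb => ?_
  refine le_trans (le_of_eq ?_) (mul_le_mul_of_nonneg_right (h b hb) (hg b hb))
  rw [sum_mul]
  exact sum_congr rfl fun y hy => by rw [(mem_filter.1 hy).2]

theorem hol_le {a ℓ : ℕ} {β : ℝ} (ha : 1 ≤ a) (hℓ : 1 ≤ ℓ) (hβ : β ≤ 1) :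
    (((11 * ℓ : ℕ) : ℝ) / (a * ℓ : ℕ)) ^ (1 + β) * (a : ℝ) ^ 2 ≤ 121 * (a / (a : ℝ) ^ β) := by
  have l0 : (0 : ℝ) < ℓ := by exact_mod_cast hℓ
  have a0 : (0 : ℝ) < a := by exact_mod_cast ha
  have e : ((11 * ℓ : ℕ) : ℝ) / (a * ℓ : ℕ) = 11 / a := by
    push_cast
    field_simp
  have h1 : (11 : ℝ) ^ β ≤ 11 := Real.rpow_le_self_of_one_le (by norm_num) hβ
  have h2 : 0 < (a : ℝ) ^ β := by positivity
  rw [e, Real.rpow_add (by positivity), Real.rpow_one, Real.div_rpow (by norm_num) a0.le]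
  calc _ = (11 : ℝ) ^ β * (11 * (a / (a : ℝ) ^ β)) := by field_simp
    _ ≤ 11 * (11 * (a / (a : ℝ) ^ β)) := by gcongr
    _ = _ := by ring

theorem insz_move [NeZero M] {A : Gauge M} {y b : Tor M} {t ρ ℓ' : ℕ} {Ω : ℝ} (hΩ : 0 ≤ Ω)
    (h : InSz A b (ρ + t) (ℓ' / 2) Ω) (h1 : tdist y b ≤ t) (h2 : t ≤ ρ) (h3 : t ≤ ℓ' / 2)
    (h4 : 2 ≤ ℓ') : InSz A y ρ ℓ' (6 * Ω) := fun w => by
  have e1 := E4.l2sq_mono (E4.ball_sub (z := y) (z' := b) (r := ρ) (r' := ρ + t) (by omega)) w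
  have e2 := RN.hsq_mono A (Nat.cast_nonneg (ℓ' / 2)) (Nat.cast_le.2 (Nat.div_le_self ℓ' 2))
    (E4.ball_sub (z := b) (z' := y) (r := ℓ' / 2) (r' := ℓ') (by rw [tdist_comm]; omega)) w
  have e3 : (ℓ' : ℝ) ≤ 3 * (ℓ' / 2 : ℕ) := by exact_mod_cast (by omega : ℓ' ≤ 3 * (ℓ' / 2))
  have e4 : ((ρ + t : ℕ) : ℝ) ≤ 2 * ρ := by exact_mod_cast (by omega : ρ + t ≤ 2 * ρ)
  have e5 := E4.l2sq_nonneg (ball y ρ) w
  have e6 := RN.hsq_nonneg A (ℓ' / 2 : ℕ) (ball b (ℓ' / 2)) w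
  calc _ ≤ l2sq (ball b (ρ + t)) w * (3 * (ℓ' / 2 : ℕ)) := by gcongr; exact e5.trans e1
    _ = 3 * (l2sq (ball b (ρ + t)) w * (ℓ' / 2 : ℕ)) := by ring
    _ ≤ 3 * (Ω * (2 * ρ) * hsq A ℓ' (ball y ℓ') w) := by
      refine mul_le_mul_of_nonneg_left ((h w).trans ?_) (by norm_num)
      gcongr
    _ = _ := by ring

theorem amgm {θ x y : ℝ} (hθ : 0 < θ) (hx : 0 ≤ x) (hy : 0 ≤ y) :
    √x * min √y √x ≤ θ * x + y / θ := by
  have h1 := mul_le_mul_of_nonneg_left (min_le_left √y √x) (Real.sqrt_nonneg x)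
  have h2 := Real.mul_self_sqrt hx
  have h3 := Real.mul_self_sqrt hy
  have h4 := mul_nonneg (Real.sqrt_nonneg x) (Real.sqrt_nonneg y)
  refine h1.trans ?_
  rw [← sub_le_iff_le_add', le_div_iff₀ hθ]
  have h5 : (θ * √x - √y) ^ 2 = θ ^ 2 * x - 2 * (θ * (√x * √y)) + y := by
    linear_combination θ ^ 2 * h2 + h3
  linarith [sq_nonneg (θ * √x - √y), mul_nonneg hθ.le h4]

/-- **The covering at one level.** -/
theorem levL (hS : SzB) (hR : RkB) (hT : TelL) (hN : NetL) (hC : CntA) : LevL := by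
  intro N
  obtain ⟨c, β, hc, hβ, hβ', QD, HD⟩ := decH_of holS N
  obtain ⟨c', hc', HH⟩ := teleH c β hc hβ hβ'
  obtain ⟨CT, hCT, HT⟩ := hT c β hc hβ hβ'
  obtain ⟨QS, CS, hQS, HS⟩ := hS N
  obtain ⟨QR, hQR, HR⟩ := hR N
  obtain ⟨m₁, N1⟩ := hN 24
  obtain ⟨m₂, N2⟩ := hN (QR + 1)
  obtain ⟨Cn, HC⟩ := hC
  refine ⟨11 * c' + 1, β, by linarith, hβ, hβ', QS + 2 * QD + 2 * N + 7, by omega, fun η hη => ?_⟩
  obtain ⟨A₁, hA₁⟩ : ∃ A : ℝ, A = 12 * (CS * m₁) + Cn * m₁ := ⟨_, rfl⟩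
  obtain ⟨A₂, hA₂⟩ : ∃ A : ℝ, A = 288 * m₁ * (CS * m₂) + (4 * m₁ + 3) * (Cn * m₁) := ⟨_, rfl⟩
  have p1 : 0 ≤ A₁ := by rw [hA₁]; positivity
  have p2 : 0 ≤ A₂ := by rw [hA₂]; positivity
  obtain ⟨θ, hθ, hθ'⟩ : ∃ θ > (0 : ℝ), θ * A₁ ≤ η / 2 := ⟨η / 2 / (A₁ + 1), by positivity, by
    rw [div_mul_eq_mul_div, div_le_iff₀ (by positivity)]
    nlinarith⟩
  obtain ⟨δ, hδ, hδ1, hδ'⟩ : ∃ δ > (0 : ℝ), δ ≤ 1 ∧ δ * A₂ ≤ η / 2 * θ := by
    have h0 : 0 < η / 2 * θ := by positivity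
    generalize η / 2 * θ = e at h0
    refine ⟨e / (A₂ + e), by positivity, div_le_one_of_le₀ (by linarith) (by positivity), ?_⟩
    rw [div_mul_eq_mul_div, div_le_iff₀ (by positivity)]
    nlinarith
  obtain ⟨K, s₀, hK, HR⟩ := HR δ hδ
  obtain ⟨a₁, ha₁⟩ := exists_nat_ge ((14 * CT + c ^ 2 * CT * (12 * (QR * K)) ^ 3) / δ)
  refine ⟨a₁ + s₀ + 24 * ((QR + 1) * ((QR + 1) * K)) + 12, ?_⟩
  intro a ha M _ R B r ℓ hI hB hM hl hr z hz
  have q1 : 14 * CT + c ^ 2 * CT * (12 * (QR * K)) ^ 3 ≤ δ * a := by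
    rw [div_le_iff₀ hδ, mul_comm _ δ] at ha₁
    exact ha₁.trans (mul_le_mul_of_nonneg_left (by exact_mod_cast (by omega : a₁ ≤ a)) hδ.le)
  have q2 : 0 ≤ c ^ 2 * CT * (12 * ((QR : ℝ) * K)) ^ 3 := by positivity
  obtain ⟨t, ht⟩ : ∃ t, t = K * (12 * ℓ) := ⟨_, rfl⟩
  obtain ⟨u, hu⟩ : ∃ u, u = a * ℓ := ⟨_, rfl⟩
  have u1 : 12 * ℓ ≤ t := ht ▸ Nat.le_mul_of_pos_left _ hK
  have u2 : 2 * ((QR + 1) * ((QR + 1) * t)) ≤ u := by
    rw [ht, hu]
    exact (le_of_eq (by ring)).trans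
      (Nat.mul_le_mul_right ℓ (show 24 * ((QR + 1) * ((QR + 1) * K)) ≤ a by omega))
  have u3 : (QR + 1) * ((QR + 1) * t) = QR * (QR * t) + 2 * (QR * t) + t := by ring
  have u4 : (QR + 1) * t = QR * t + t := by ring
  have u5 : t ≤ QR * t := Nat.le_mul_of_pos_left _ hQR
  have u6 : (QS + 2 * QD + 2 * N + 7) * u = QS * u + 2 * (QD * u) + 2 * (N * u) + 7 * u := by ring
  have u7 : N ≤ N * u := Nat.le_mul_of_pos_right _ (by omega)
  have u8 : QD * (u + 1) ≤ QD * (2 * u) := Nat.mul_le_mul_left _ (by omega)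
  have u9 : QD * (2 * u) = 2 * (QD * u) := by ring
  have u10 : QS * (u / 2) ≤ QS * u := Nat.mul_le_mul_left _ (Nat.div_le_self _ _)
  rw [← hu] at hr hz
  classical
  obtain ⟨Z, z1, z2, z3⟩ := N1 M (univ.filter fun x => Bq R.In x ∧ tdist x z ≤ u + 1) (ℓ - 1)
    (by omega)
  have z4 : ∀ y ∈ Z, Bq R.In y ∧ tdist y z ≤ u + 1 := fun y hy => (mem_filter.1 (z1 hy)).2
  have z5 : MuT Z (12 * ℓ) m₁ := MuT.mono z3 subset_rfl (by omega)
  obtain ⟨Y, y1, y2, y3⟩ := N2 M Z t (by omega)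
  choose! π hπ hπ' using y2
  have fl : ∀ y ∈ Z, Flat B y (2 * u) := fun y hy =>
    flatW M R B N r hI hB y 1 _ (z4 y hy).1.2 (by omega)
  have tz := tdist_self z
  obtain ⟨Ω₁, o1, s1⟩ := HS M R B r hI hB hM z (12 * ℓ) u m₁ Z (by omega) (by omega) (by omega)
    (lip_move hz (by omega)) (fun y hy => ⟨(z4 y hy).1, by have := (z4 y hy).2; omega⟩) z5
  obtain ⟨Ω₂, o2, s2⟩ := HS M R B r hI hB hM z ((QR + 1) * t) (u / 2) m₂ Y (by omega) (by omega)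
    (by omega) (lip_move hz (by omega))
    (fun y hy => ⟨(z4 y (y1 hy)).1, by have := (z4 y (y1 hy)).2; omega⟩) y3
  have o3 : ∀ b ∈ Y, ∃ Ω : Tor M → ℝ, (∀ y ∈ Z.filter fun y => π y = b, 0 ≤ Ω y ∧
      HomR (R.pw * B) y (12 * ℓ) (QR * t) (Ω y)) ∧ ∑ y ∈ Z.filter fun y => π y = b, Ω y ≤ δ * m₁ := by
    intro b hb
    have h1 := z4 b (y1 hb)
    have h2 := HR M R B u b hB.sign (lip_move hz (by omega)) (hI.mono (by omega)) (by omega)
      (12 * ℓ) m₁ (Z.filter fun y => π y = b) h1.1 (by omega)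
    rw [← ht] at h2
    exact h2 (by omega) (fun f hf => fl b (y1 hb) f (by omega))
      (fun y hy => ⟨(z4 y (mem_filter.1 hy).1).1, (mem_filter.1 hy).2 ▸ hπ' y (mem_filter.1 hy).1⟩)
      (MuT.mono z5 (filter_subset _ _) le_rfl)
  choose! Ω o3 s3 using o3
  have o4 : ∀ y ∈ Z, 0 ≤ Ω (π y) y ∧ HomR (R.pw * B) y (12 * ℓ) (QR * t) (Ω (π y) y) :=
    fun y hy => o3 _ (hπ y hy) y (mem_filter.2 ⟨hy, rfl⟩)
  have a1 : (1 : ℝ) ≤ a := by exact_mod_cast (by omega : 1 ≤ a)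
  have cz : (Z.card : ℝ) ≤ Cn * m₁ * a := by
    have h1 := HC M R.In _ z hz (by omega) (u + 1) (12 * ℓ) m₁ Z (by omega) (by omega) z4 z5
    have h2 : (u + 1) / (12 * ℓ) < a := Nat.div_lt_of_lt_mul (by
      have : 12 * ℓ * a = 12 * u := by rw [hu]; ring
      omega)
    exact_mod_cast h1.trans (Nat.mul_le_mul_left _ h2)
  obtain ⟨P, hP⟩ : ∃ P : ℝ, P = a / (a : ℝ) ^ β := ⟨_, rfl⟩
  have P1 : 1 ≤ P := hP ▸ (one_le_div (by positivity)).2
    (Real.rpow_le_self_of_one_le a1 (by linarith))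
  set x₁ : Tor M → ℝ := fun y => min (12 * a * Ω₁ y) (121 * c' ^ 2 * P) + δ with hx₁
  set x₂ : Tor M → ℝ := fun y =>
    48 * a * Ω (π y) y * (6 * Ω₂ (π y)) + 4 * Ω (π y) y * δ + 3 * δ with hx₂
  have x1 : ∀ y ∈ Z, 0 < x₁ y := fun y hy => by
    have := (o1 y hy).1
    simp only [hx₁]
    positivity
  have x2 : ∀ y ∈ Z, 0 < x₂ y := fun y hy => by
    have := (o4 y hy).1
    have := (o2 _ (hπ y hy)).1
    simp only [hx₂]
    positivity
  refine ⟨Z.image fun y => (y, √(x₁ y), min √(x₂ y) √(x₁ y)), fun p hp => ?_, ?_, fun x h1 h2 => ?_⟩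
  · obtain ⟨y, hy, rfl⟩ := mem_image.1 hp
    obtain ⟨d1, d2⟩ := HD M R B r y hB.sign hI hM (z4 y hy).1.1 u (by omega) (fl y hy)
    refine ⟨(z4 y hy).1.2, lt_min (Real.sqrt_pos.2 (x2 y hy)) (Real.sqrt_pos.2 (x1 y hy)),
      min_le_right _ _, ?_, rk_min ?_⟩
    · rw [← hP]
      refine Real.sqrt_le_iff.2 ⟨by positivity, ?_⟩
      rw [mul_pow, Real.sq_sqrt (by linarith)]
      have := min_le_right (12 * a * Ω₁ y) (121 * c' ^ 2 * P)
      simp only [hx₁]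
      nlinarith
    · have d3 := (o2 _ (hπ y hy)).2
      rw [u4] at d3
      have d4 := insz_move (o2 _ (hπ y hy)).1 d3 (hπ' y hy) u5 (by omega) (by omega)
      have d5 := (o1 y hy).2
      have d6 := HH M _ y 8 u (by norm_num) d1 d2 (11 * ℓ) (by omega) (by omega)
      have d7 := (HT M _ y u d1 d2).1
      subst hu
      refine rk_pt (K := 12 * (QR * K)) (X := min (12 * a * Ω₁ y) (121 * c' ^ 2 * P)) (δ := δ)
        (by omega) (by omega) le_rfl (by omega) (by omega) ?_ d7 d2 (o4 y hy).2 d4 (fun w => ?_)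
        hCT (o4 y hy).1 (by linarith) (by linarith) (Real.sq_sqrt (x1 y hy).le).ge
        (Real.sq_sqrt (x2 y hy).le).ge
      · rw [ht]
        push_cast
        exact le_of_eq (by ring)
      · have e0 := RN.hsq_nonneg (R.pw * B) (a * ℓ : ℕ) (ball y (a * ℓ)) w
        rw [min_mul_of_nonneg _ _ e0]
        refine le_min ?_ ?_
        · have e1 := d5 w
          have e2 := E4.l2sq_mono (E3.ball_mono y (show 11 * ℓ ≤ 12 * ℓ by omega)) w
          have l0 : (0 : ℝ) < ℓ := by exact_mod_cast (by omega : 0 < ℓ)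
          generalize hsq (R.pw * B) (a * ℓ : ℕ) (ball y (a * ℓ)) w = H at e1 ⊢
          push_cast at e1
          have e3 := mul_le_mul_of_nonneg_right e1 (zero_le_one.trans a1)
          have e4 := mul_le_mul_of_nonneg_right e2 (by positivity : 0 ≤ (a : ℝ) ^ 2 * ℓ)
          refine le_of_mul_le_mul_right ?_ l0
          linarith
        · have e1 := mul_le_mul_of_nonneg_right (d6 w) (sq_nonneg (a : ℝ))
          have e2 := mul_le_mul_of_nonneg_left (hol_le (a := a) (ℓ := ℓ) (β := β) (by omega)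
            (by omega) (by linarith)) (mul_nonneg (sq_nonneg c') e0)
          rw [hP]
          linarith
  · rw [sum_image fun _ _ _ _ h => (Prod.ext_iff.1 h).1]
    have f1 : ∑ y ∈ Z, x₁ y ≤ A₁ * a := by
      have h1 : ∑ y ∈ Z, x₁ y ≤ ∑ y ∈ Z, (12 * a * Ω₁ y + 1) :=
        sum_le_sum fun y _ => add_le_add (min_le_left _ _) hδ1
      rw [sum_add_distrib (g := fun _ => (1 : ℝ)), ← mul_sum, sum_const, nsmul_eq_mul,
        mul_one] at h1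
      have h2 := mul_le_mul_of_nonneg_left s1 (by positivity : 0 ≤ 12 * (a : ℝ))
      rw [hA₁]
      linarith
    have f2 : ∑ y ∈ Z, x₂ y ≤ δ * A₂ * a := by
      have h1 := fib hπ (fun b hb => (o2 b hb).1) s3
      have h2 := fib (g := fun _ => 1) hπ (fun _ _ => zero_le_one) s3
      have h3 : (Y.card : ℝ) ≤ Cn * m₁ * a := le_trans (by exact_mod_cast card_le_card y1) cz
      simp only [mul_one, sum_const, nsmul_eq_mul] at h2
      have h4 : ∑ y ∈ Z, x₂ y = 288 * a * ∑ y ∈ Z, Ω (π y) y * Ω₂ (π y) +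
          4 * δ * ∑ y ∈ Z, Ω (π y) y + 3 * δ * Z.card := by
        rw [mul_sum, mul_sum, ← sum_add_distrib, mul_comm (3 * δ), ← nsmul_eq_mul, ← sum_const,
          ← sum_add_distrib]
        exact sum_congr rfl fun y _ => by simp only [hx₂]; ring
      have h5 := h1.trans (mul_le_mul_of_nonneg_left s2 (by positivity))
      have h6 := h2.trans (mul_le_mul (mul_le_of_le_one_left (Nat.cast_nonneg m₁) hδ1) h3
        (Nat.cast_nonneg _) (Nat.cast_nonneg _))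
      have h7 := mul_le_mul_of_nonneg_left h5 (by positivity : 0 ≤ 288 * (a : ℝ))
      have h8 := mul_le_mul_of_nonneg_left h6 (by positivity : 0 ≤ 4 * δ)
      have h9 := mul_le_mul_of_nonneg_left cz (by positivity : 0 ≤ 3 * δ)
      rw [h4, hA₂]
      linarith
    refine (sum_le_sum fun y hy => amgm hθ (x1 y hy).le (x2 y hy).le).trans ?_
    rw [sum_add_distrib, ← mul_sum, ← sum_div]
    have f3 := mul_le_mul_of_nonneg_left f1 hθ.le
    have f4 := mul_le_mul_of_nonneg_right hθ' (zero_le_one.trans a1)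
    have f5 : (∑ y ∈ Z, x₂ y) / θ ≤ η / 2 * a := by
      rw [div_le_iff₀ hθ]
      linarith [mul_le_mul_of_nonneg_right hδ' (zero_le_one.trans a1)]
    linarith
  · obtain ⟨x', k1, k2⟩ : ∃ x', Bq R.In x' ∧ tdist x x' ≤ 1 := by
      by_cases hx : x ∈ R.In
      · obtain ⟨-, f, k1, k2⟩ := h2
        rw [tdist_comm] at k2
        exact ⟨f, ⟨k1, ⟨x, hx, k2⟩, f, k1, by rw [tdist_self]; omega⟩, k2⟩
      · exact ⟨x, ⟨hx, h2⟩, by rw [tdist_self]; omega⟩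
    have k3 := tdist_triangle x' x z
    rw [tdist_comm x' x] at k3
    obtain ⟨y, hy, k4⟩ := z2 x' (mem_filter.2 ⟨mem_univ _, k1, by omega⟩)
    have k5 := tdist_triangle x x' y
    exact ⟨_, mem_image_of_mem _ hy, by simp only; omega⟩

end Vale.Agent.P144L.S
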