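import Vale.Agent.P144L.Defs
import Vale.Agent.P144E.An2.Dec
import Vale.Agent.P144D.B.Max

/-!
The sizes of the homogeneous solutions along a Lipschitz boundary.
-/

namespace Vale.Agent.P144L.S

open Finset Matrix Vale.Agent.P144Z Vale.Agent.P144Z.HomDec Vale.Agent.P144Z.An2

theorem tc_lo : 3 / 4 ≤ 2 * tc := by
  have : (11 / 8 : ℝ) ≤ √2 := Real.le_sqrt_of_sq_le (by norm_num)
  unfold tc
  linarith

theorem tc_hi : 2 * tc ≤ 1 := by
  have : √2 ≤ (3 / 2 : ℝ) := Real.sqrt_le_iff.2 ⟨by norm_num, by norm_num⟩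
  unfold tc
  linarith

theorem MuZ.two {Z : Finset (ℤ × ℤ)} {s m : ℕ} (h : MuZ Z s m) : MuZ Z (2 * s) (4 * m) := by
  intro x
  have h1 : (Z.filter fun y => zd y x ≤ 2 * s) ⊆
      ((Z.filter fun y => zd y (x.1 + s, x.2 + s) ≤ s) ∪
        Z.filter fun y => zd y (x.1 + s, x.2 - s) ≤ s) ∪
      ((Z.filter fun y => zd y (x.1 - s, x.2 + s) ≤ s) ∪
        Z.filter fun y => zd y (x.1 - s, x.2 - s) ≤ s) := by
    intro y hy
    obtain ⟨h1, h2⟩ := mem_filter.1 hy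
    rw [mem_union, mem_union, mem_union, mem_filter, mem_filter, mem_filter, mem_filter]
    simp only [h1, true_and, zd] at h2 ⊢
    omega
  have h2 := card_le_card h1
  have h3 := card_union_le ((Z.filter fun y => zd y (x.1 + s, x.2 + s) ≤ s) ∪
    Z.filter fun y => zd y (x.1 + s, x.2 - s) ≤ s) ((Z.filter fun y => zd y (x.1 - s, x.2 + s) ≤ s) ∪
    Z.filter fun y => zd y (x.1 - s, x.2 - s) ≤ s)
  have h4 := card_union_le (Z.filter fun y => zd y (x.1 + s, x.2 + s) ≤ s)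
    (Z.filter fun y => zd y (x.1 + s, x.2 - s) ≤ s)
  have h5 := card_union_le (Z.filter fun y => zd y (x.1 - s, x.2 + s) ≤ s)
    (Z.filter fun y => zd y (x.1 - s, x.2 - s) ≤ s)
  have := h (x.1 + s, x.2 + s)
  have := h (x.1 + s, x.2 - s)
  have := h (x.1 - s, x.2 + s)
  have := h (x.1 - s, x.2 - s)
  omega

/-- A pair is bounded by the two barriers. -/
theorem bar_bound {pr pr' : ℤ × ℤ → Fin 4 → Prop} {out out' : ℤ × ℤ → Prop} {ν : ℂ}
    {u w ω₁ ω₂ : ℤ × ℤ → ℝ} {s₁ ρ r : ℕ} {S : ℝ} (hp : IsPair s₁ u w pr' out')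
    (he : ∀ v, zd v 0 + 2 ≤ r → (∀ a, pr' v a ↔ pr v a) ∧ (out' v ↔ out v))
    (h1 : IsBar (2 * tc) pr ν ρ ω₁) (h2 : IsBar 1 (prO out) ν ρ ω₂) (hs : 1000 * ρ ≤ s₁)
    (hr : 1000 * ρ + 2 ≤ r) (hS : ∀ v, zd v 0 ≤ 1000 * ρ → |u v| ≤ S ∧ |w v| ≤ S) {x : ℤ × ℤ}
    (hx : zd x 0 ≤ ρ) : u x ≤ S * ω₁ x ∧ -w x ≤ S * ω₂ x := by
  have hS0 : 0 ≤ S := (abs_nonneg _).trans (hS 0 (by simp [zd])).1
  refine ⟨h1.cmp u S hS0 (fun v hv => (le_abs_self _).trans (hS v hv).1) (fun v hv _ => ?_) x hx,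
    h2.cmp (fun v => -w v) S hS0 (fun v hv => (neg_le_abs _).trans (hS v hv).2)
      (fun v hv h0 => ?_) x hx⟩
  · refine (hp.sub v (by omega)).trans (le_of_eq (sum_congr rfl fun a _ => ?_))
    unfold GG
    by_cases h : pr v a
    · rw [if_pos h, if_pos (((he v (by omega)).1 a).2 h)]
    · rw [if_neg h, if_neg (mt ((he v (by omega)).1 a).1 h)]
  · have ho : ¬ out' v := fun h => by
      have := hp.zero v (by omega) h
      linarith
    have h3 := hp.sup v (by omega) ho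
    refine (neg_nonneg.2 h3).trans (le_of_eq ?_)
    unfold lapG
    rw [← sum_neg_distrib]
    refine sum_congr rfl fun a _ => ?_
    have h4 := B1b.zd_st4 v a
    by_cases h : prO out v a
    · rw [if_pos h]; ring
    · have h5 : out (v + st4 a) := by
        by_contra h5
        exact h ⟨mt (he v (by omega)).2.2 ho, h5⟩
      rw [if_neg h, hp.zero _ (by omega) ((he _ (by omega)).2.2 h5)]
      ring

variable {M : ℕ}

theorem pr_fc (R : Reg M) (b : Tor M) (x : ℤ × ℤ) : R.pr (fc R b x) = fun v => R.pr b (x + v) := by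
  funext v a
  unfold Reg.pr fc
  split_ifs
  · simp only [prj_neg, G.prj_add, sub_eq_add_neg, neg_add, add_assoc]
  · simp only [G.prj_add, add_sub_assoc, add_assoc]

theorem out_fc (R : Reg M) (b : Tor M) (x : ℤ × ℤ) :
    R.out (fc R b x) = fun v => R.out b (x + v) := by
  funext v
  unfold Reg.out fc
  split_ifs
  · simp only [prj_neg, G.prj_add, sub_eq_add_neg, neg_add, add_assoc]
  · simp only [G.prj_add, add_assoc]

theorem vx_fc (R : Reg M) (b : Tor M) (x v : ℤ × ℤ) (k : Fin 4) :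
    R.vx (fc R b x) v k = R.vx b (x + v) k := by
  unfold Reg.vx fc
  split_ifs
  · simp only [prj_neg, G.prj_add, add_sub_assoc, sub_eq_add_neg b, neg_add, add_assoc]
    rw [sub_eq_add_neg]
  · simp only [G.prj_add, add_assoc]

theorem fc_zero (R : Reg M) (b : Tor M) : fc R b 0 = b := by
  unfold fc
  simp [G.prj_zero]

/-- The mass of the field near a face is bounded by the supremum of the pair. -/
theorem l2_at (C₀ : ℝ) (hC₀ : 0 ≤ C₀) : ∃ C : ℝ, 1 ≤ C ∧ ∀ (M : ℕ) [NeZero M] (R : Reg M)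
    (b : Tor M) (φ : Tor M × Fin 4 → ℝ) (u w : ℤ × ℤ → ℝ) (x : ℤ × ℤ) (s s₁ : ℕ) (S : ℝ),
    IsPair s₁ u w (R.pr b) (R.out b) → zd x 0 + (2 * s + 3) ≤ s₁ →
    (∀ v, zd v 0 + 1 ≤ s₁ → ∑ k, chi φ (R.vx b v k) k ^ 2 ≤ C₀ * ∑ a, |GG u (R.pr b) v a|) →
    (∀ v, zd v x ≤ 2 * s + 3 → |u v| ≤ S) → l2sq (ball (fc R b x) s) φ ≤ C * (s + 1) * S := by
  obtain ⟨C, hC, H⟩ := l2_of_sup C₀ hC₀
  refine ⟨C, hC, fun M _ R b φ u w x s s₁ S hp hx hl hu => ?_⟩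
  refine H M R _ φ (fun v => u (x + v)) (fun v => w (x + v)) s (2 * s + 3) S ?_ le_rfl
    (fun v hv => ?_) fun v hv => hu _ (by simpa [zd] using hv)
  · rw [pr_fc, out_fc]
    exact hp.shift x hx
  · have := B1b.zd_add x v
    simp only [pr_fc, vx_fc, B1a1.GG_shift]
    exact hl _ (by omega)

/-- The pair of a homogeneous solution and its supremum. -/
theorem pair (N : ℕ) : ∃ C₁ C : ℝ, 1 ≤ C₁ ∧ 1 ≤ C ∧
    ∀ (M : ℕ) [NeZero M] (R : Reg M) (B : Gauge M) (r : ℕ) (b : Tor M), IsSign B → Rgh R.In N r →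
    b ∉ R.In → ∀ s₁ ρ : ℕ, 8 ≤ s₁ → s₁ + 2 ≤ ρ → N * (s₁ + 3) ≤ ρ → ρ ≤ r →
    N * ((N + 1) * (s₁ + 1)) ≤ r → 2 * ρ + 9 ≤ M → 4 * s₁ < M → Flat B b (ρ + 2) →
    ∀ φ, Hom (R.pw * B) b (ρ + 2) φ → ∃ u w, IsPair s₁ u w (R.pr b) (R.out b) ∧
      (∀ v k, zd v 0 ≤ s₁ → u v - w (v - cn k) = chi φ (R.vx b v k) k ^ 2) ∧
      (∀ v, zd v 0 + 1 ≤ s₁ → ∑ k, chi φ (R.vx b v k) k ^ 2 ≤ C₁ * ∑ a, |GG u (R.pr b) v a|) ∧
      ∀ v, 2 * zd v 0 ≤ s₁ → |u v| * s₁ ≤ C * l2sq (ball b (s₁ + 1)) φ ∧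
        |w v| * s₁ ≤ C * l2sq (ball b (s₁ + 1)) φ := by
  obtain ⟨C₁, hC₁, H₁⟩ := exists_pair
  obtain ⟨C₂, hC₂, H₂⟩ := chi_cmp
  obtain ⟨C₃, hC₃, H₃⟩ := pair_sup
  refine ⟨C₁, C₃ * C₂, hC₁, one_le_mul_of_one_le_of_one_le hC₃ hC₂, ?_⟩
  intro M _ R B r b hB hR hb s₁ ρ h8 hρ hN hr hN' hM hM' hF φ hφ
  obtain ⟨u, w, hp, he, hl⟩ := H₁ M R B hB b s₁ ρ hρ hM hF
    ((hR.conn b (s₁ + 2) (hN.trans hr)).mono' le_rfl hN) φ hφ
  have hmass : ∑ x ∈ box s₁, ∑ k, (u x - w (x - cn k)) ≤ C₂ * l2sq (ball b (s₁ + 1)) φ := by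
    rw [sum_congr rfl fun x hx => sum_congr rfl fun k _ => he x k (mem_box.1 hx)]
    refine (sum_box_le R b (by omega) (fun y k => chi φ y k ^ 2) fun _ _ => sq_nonneg _).trans ?_
    rw [l2sq, mul_sum]
    exact sum_le_sum fun y _ => (H₂ M φ y).2
  refine ⟨u, w, hp, he, hl, fun v hv => ?_⟩
  rw [mul_assoc]
  refine H₃ s₁ u w _ _ hp h8 (fun t _ h2 => ?_) v hv _ hmass
  obtain ⟨f, hf, hf'⟩ := contour hR hb (s := t)
    (le_trans (Nat.mul_le_mul_left _ (Nat.mul_le_mul_left _ (by omega))) hN') (by omega)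
  obtain ⟨x, hx, rfl⟩ := exists_fc R b f
  exact ⟨x, 0, hx.trans hf', by rw [cn_zero, sub_zero]; exact out_of hf⟩

/-- The largest values of a barrier near the points of a set are summable. -/
theorem car_max (hC : CarL) : ∃ C : ℕ, ∀ θ : ℝ, 3 / 4 ≤ θ → θ ≤ 1 → ∀ pr ν (ρ : ℕ) ω, Mn pr ν →
    IsBar θ pr ν ρ ω → ∀ (M : ℕ) [NeZero M] (R : Reg M) (b : Tor M) (s m : ℕ)
    (Z : Finset (Tor M)) (co : Tor M → ℤ × ℤ), (∀ y, fc R b (co y) = y) → 1 ≤ s → C * s ≤ ρ →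
    (∀ y ∈ Z, Bc pr ν (co y) ∧ 2 * zd (co y) 0 ≤ ρ) → MuT Z s m → ∃ f : Tor M → ℝ,
      (∀ y v, zd v (co y) ≤ 8 * s → ω v ≤ f y) ∧ ∑ y ∈ Z, f y ≤ C * m := by
  obtain ⟨C, H⟩ := hC
  refine ⟨64 * C, fun θ h1 h2 pr ν ρ ω hm hb M _ R b s m Z co hco hs hρ hZ hμ => ?_⟩
  have hx : ∀ y : ℤ × ℤ, ∃ x, zd x y ≤ 8 * s ∧ ∀ v, zd v y ≤ 8 * s → ω v ≤ ω x := fun y => by
    obtain ⟨x, h3, h4⟩ := exists_max_image (box (8 * s)) (fun v => ω (y + v))
      ⟨0, mem_box.2 (by simp [zd])⟩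
    refine ⟨y + x, by simpa [zd] using mem_box.1 h3, fun v hv => ?_⟩
    have := h4 (v - y) (mem_box.2 (by simpa [zd] using hv))
    rwa [add_sub_cancel] at this
  choose g hg hg' using hx
  have inj : Function.Injective co := fun y y' h => by rw [← hco y, h, hco]
  have h0 : MuZ (Z.image co) s m := fun x => by
    refine le_trans ?_ (hμ (fc R b x))
    rw [filter_image, card_image_of_injective _ inj]
    refine card_le_card (monotone_filter_right _ fun y _ hy => ?_)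
    rw [← hco y]
    exact (tdist_fc R b _ _).trans hy
  have h8 := MuZ.two (MuZ.two (MuZ.two h0))
  rw [show 2 * (2 * (2 * s)) = 8 * s by ring] at h8
  have h := H θ h1 h2 pr ν ρ ω hm hb (8 * s) _ (Z.image co) (fun y => ω (g y)) (by omega)
    (by nlinarith) (fun y hy => by
      obtain ⟨x, hx, rfl⟩ := mem_image.1 hy
      exact ⟨(hZ x hx).1, (hZ x hx).2, _, hg _, le_rfl⟩) h8
  rw [sum_image fun _ _ _ _ h => inj h] at h
  refine ⟨fun y => ω (g (co y)), fun y v hv => hg' _ v hv, h.trans (le_of_eq ?_)⟩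
  push_cast
  ring

/-- **The sizes are summable.** -/
theorem szL (hM : ModL) (hK : ConL) (hB : BarL) (hC : CarL) : SzL := by
  intro N
  obtain ⟨C₁, C₂, hC₁, hC₂, H₁⟩ := pair N
  obtain ⟨C₄, hC₄, H₄⟩ := l2_at C₁ (by linarith)
  obtain ⟨C, H⟩ := car_max hC
  obtain ⟨k, hk⟩ : ∃ k, k = C + 100 := ⟨_, rfl⟩
  obtain ⟨Q, hQ⟩ : ∃ Q, Q = (N + 1) * (2000 * k + 3) + 3 := ⟨_, rfl⟩
  refine ⟨Q, ⌈4 * Q * C₄ * C₂ * C⌉₊, by omega, ?_⟩
  intro M _ R B r hs hL hR h4 b s ρ m Z hb s1 sρ hr hF hZ hμ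
  obtain ⟨pr, out, ν, md, he, hq⟩ := hM M R r b hL h4
  obtain ⟨mo, hc⟩ := hK pr out ν md
  obtain ⟨s₁, hs₁⟩ : ∃ s₁, s₁ = 2000 * (k * ρ) := ⟨_, rfl⟩
  have a0 : 100 * ρ ≤ k * ρ := Nat.mul_le_mul_right _ (by omega)
  have a1 : (N + 1) * (s₁ + 3) + 3 * ρ ≤ Q * ρ := by
    have : (N + 1) * (s₁ + 3) ≤ (N + 1) * ((2000 * k + 3) * ρ) :=
      Nat.mul_le_mul_left _ (by rw [hs₁]; nlinarith)
    rw [hQ]
    nlinarith
  have a2 : N + 3 ≤ Q := by rw [hQ]; nlinarith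
  have a3 : (N + 3) * (Q * ρ) ≤ r := (Nat.mul_le_mul_right _ a2).trans hr
  have a4 : s₁ + 3 + N * (s₁ + 3) = (N + 1) * (s₁ + 3) := by ring
  have a5 : N * ((N + 1) * (s₁ + 1)) ≤ N * (Q * ρ) :=
    Nat.mul_le_mul_left _ ((Nat.mul_le_mul_left _ (by omega)).trans (le_of_add_le_left a1))
  have a6 : (N + 3) * (Q * ρ) = N * (Q * ρ) + 3 * (Q * ρ) := by ring
  have b0 := hc 0 (hq 0 (by simp only [zd]; omega) (by
    have := fc_zero R b
    unfold fc at this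
    rwa [this]))
  obtain ⟨ω₁, w1⟩ := hB _ tc_lo tc_hi pr ν md.mn b0.1 (k * ρ) (by omega)
  obtain ⟨ω₂, w2⟩ := hB 1 (by norm_num) le_rfl _ ν mo b0.2 (k * ρ) (by omega)
  choose co hco hco' using exists_fc R b
  have c0 : ∀ y ∈ Z, Bc pr ν (co y) ∧ Bc (prO out) ν (co y) := fun y hy =>
    hc _ (hq _ (by have := (hZ y hy).2; rw [hco]; omega) (by
      have := hco' y
      unfold fc at this
      rw [this]
      exact (hZ y hy).1))
  have c1 : C * s ≤ k * ρ := Nat.mul_le_mul (by omega) sρ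
  have c2 : ∀ y ∈ Z, 2 * zd (co y) 0 ≤ k * ρ := fun y hy => by
    have := (hZ y hy).2
    rw [hco]
    omega
  obtain ⟨f₁, f1, g1⟩ := H _ tc_lo tc_hi pr ν _ ω₁ md.mn w1 M R b s m Z co hco' s1 c1
    (fun y hy => ⟨(c0 y hy).1, c2 y hy⟩) hμ
  obtain ⟨f₂, f2, g2⟩ := H 1 (by norm_num) le_rfl _ ν _ ω₂ mo w2 M R b s m Z co hco' s1 c1
    (fun y hy => ⟨(c0 y hy).2, c2 y hy⟩) hμ
  have p1 : ∀ y, 0 ≤ f₁ y := fun y => (w1.rng _).1.trans (f1 y (co y) (by simp [zd]))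
  have p2 : ∀ y, 0 ≤ f₂ y := fun y => (w2.rng _).1.trans (f2 y (co y) (by simp [zd]))
  refine ⟨fun y => 2 * Q * C₄ * C₂ * (f₁ y + f₂ y), fun y hy => ⟨by
    have := p1 y; have := p2 y; positivity, fun φ hφ => ?_⟩, ?_⟩
  · have d0 := (hZ y hy).2
    obtain ⟨u, w, hp, -, hl, hu⟩ := H₁ M R B r b hs hR hb.1 s₁ ((N + 1) * (s₁ + 3)) (by omega)
      (by omega) (by omega) (by omega) (by omega) (by omega) (by omega)
      (fun f hf => hF f (by omega)) φ fun t ht => hφ t (by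
        have := tdist_triangle t.1 b y
        rw [tdist_comm b y] at this
        omega)
    set A := l2sq (ball y (Q * ρ)) φ with hA
    have d1 : l2sq (ball b (s₁ + 1)) φ ≤ A :=
      sum_le_sum_of_subset_of_nonneg (fun t ht => G.mem_ball.2 (by
        have := tdist_triangle t b y
        have := G.mem_ball.1 ht
        rw [tdist_comm b y] at *
        omega)) fun _ _ _ => sum_nonneg fun _ _ => sq_nonneg _
    have d2 : (0 : ℝ) < s₁ := by exact_mod_cast (by omega : 0 < s₁)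
    have d3 : 0 ≤ A := l2sq_nonneg _ _
    have d4 : 0 ≤ C₂ * A / s₁ := by positivity
    have d5 := H₄ M R b φ u w (co y) s s₁ (C₂ * A / s₁ * (f₁ y + f₂ y)) hp
      (by rw [hco]; omega) hl fun v hv => by
        have e1 : zd v 0 ≤ k * ρ := by
          have := hco y
          simp only [zd, Prod.fst_zero, Prod.snd_zero, sub_zero] at hv this ⊢
          omega
        obtain ⟨e2, e3⟩ := bar_bound (S := C₂ * A / s₁) hp he w1 w2 (by omega) (by omega)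
          (fun x hx => by
            have := mul_le_mul_of_nonneg_left d1 (zero_le_one.trans hC₂)
            rw [le_div_iff₀ d2, le_div_iff₀ d2]
            exact ⟨(hu x (by omega)).1.trans this, (hu x (by omega)).2.trans this⟩) e1
        have e4 := hp.le v 0 (by omega)
        rw [cn_zero, sub_zero] at e4
        have e5 := mul_le_mul_of_nonneg_left (f1 y v (by omega)) d4
        have e6 := mul_le_mul_of_nonneg_left (f2 y v (by omega)) d4
        have e7 := mul_nonneg d4 (p1 y)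
        have e8 := mul_nonneg d4 (p2 y)
        rw [mul_add, abs_le]
        constructor <;> linarith
    rw [hco'] at d5
    have d6 : (ρ : ℝ) ≤ s₁ := by exact_mod_cast (by omega : ρ ≤ s₁)
    have d7 : (1 : ℝ) ≤ s := by exact_mod_cast s1
    have d8 := add_nonneg (p1 y) (p2 y)
    push_cast
    calc _ ≤ C₄ * (2 * s) * (C₂ * A / s₁ * (f₁ y + f₂ y)) * (Q * s₁) := by
          refine mul_le_mul (d5.trans ?_) (by gcongr) (by positivity) (by positivity)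
          gcongr
          linarith
      _ = _ := by field_simp
  · rw [← mul_sum, sum_add_distrib]
    have h1 := Nat.le_ceil (4 * Q * C₄ * C₂ * C)
    calc _ ≤ 2 * Q * C₄ * C₂ * (C * m + C * m) := by gcongr
      _ = 4 * Q * C₄ * C₂ * C * m := by ring
      _ ≤ _ := by gcongr

end Vale.Agent.P144L.S
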