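import Vale.Agent.P144L.Defs2
import Vale.Agent.P144L.S.Sz

/-!
The sizes of the homogeneous solutions along a Lipschitz piece of the boundary.
-/

namespace Vale.Agent.P144L.S

open Finset Matrix Vale.Agent.P144Z Vale.Agent.P144Z.HomDec Vale.Agent.P144Z.An2

/-- **The sizes are summable.** -/
theorem szA (hM : ModA) (hK : ConL) (hB : BarL) (hC : CarL) : SzA := by
  intro N
  obtain ⟨C₁, C₂, hC₁, hC₂, H₁⟩ := pair N
  obtain ⟨C₄, hC₄, H₄⟩ := l2_at C₁ (by linarith)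
  obtain ⟨C, H⟩ := car_max hC
  obtain ⟨k, hk⟩ : ∃ k, k = C + 100 := ⟨_, rfl⟩
  obtain ⟨Q, hQ⟩ : ∃ Q, Q = (N + 1) * (2000 * k + 3) + 3 := ⟨_, rfl⟩
  refine ⟨Q, ⌈4 * Q * C₄ * C₂ * C⌉₊, by omega, ?_⟩
  intro M _ R B r b hs hL hR h4 s ρ m Z hb s1 sρ hr hF hZ hμ
  obtain ⟨pr, out, ν, md, he, hq⟩ := hM M R r b hL h4
  obtain ⟨mo, hc⟩ := hK pr out ν md
  obtain ⟨s₁, hs₁⟩ : ∃ s₁, s₁ = 2000 * (k * ρ) := ⟨_, rfl⟩
  have a0 : 100 * ρ ≤ k * ρ := Nat.mul_le_mul_right _ (by omega)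
  have a1 : (N + 1) * (s₁ + 3) + 3 * ρ ≤ Q * ρ := by
    have : (N + 1) * (s₁ + 3) ≤ (N + 1) * ((2000 * k + 3) * ρ) :=
      Nat.mul_le_mul_left _ (by rw [hs₁]; nlinarith)
    rw [hQ]
    nlinarith
  have a2 : N + 3 ≤ Q := by rw [hQ]; nlinarith
  have a3 : (N + 3) * (Q * ρ) ≤ r := (Nat.mul_le_mul_right _ a2).trans hr
  have a4 : s₁ + 3 + N * (s₁ + 3) = (N + 1) * (s₁ + 3) := by ring
  have a5 : N * ((N + 1) * (s₁ + 1)) ≤ N * (Q * ρ) :=
    Nat.mul_le_mul_left _ ((Nat.mul_le_mul_left _ (by omega)).trans (le_of_add_le_left a1))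
  have a6 : (N + 3) * (Q * ρ) = N * (Q * ρ) + 3 * (Q * ρ) := by ring
  have b0 := hc 0 (hq 0 (by simp only [zd]; omega) (by
    have := fc_zero R b
    unfold fc at this
    rwa [this]))
  obtain ⟨ω₁, w1⟩ := hB _ tc_lo tc_hi pr ν md.mn b0.1 (k * ρ) (by omega)
  obtain ⟨ω₂, w2⟩ := hB 1 (by norm_num) le_rfl _ ν mo b0.2 (k * ρ) (by omega)
  choose co hco hco' using exists_fc R b
  have c0 : ∀ y ∈ Z, Bc pr ν (co y) ∧ Bc (prO out) ν (co y) := fun y hy =>
    hc _ (hq _ (by have := (hZ y hy).2; rw [hco]; omega) (by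
      have := hco' y
      unfold fc at this
      rw [this]
      exact (hZ y hy).1))
  have c1 : C * s ≤ k * ρ := Nat.mul_le_mul (by omega) sρ
  have c2 : ∀ y ∈ Z, 2 * zd (co y) 0 ≤ k * ρ := fun y hy => by
    have := (hZ y hy).2
    rw [hco]
    omega
  obtain ⟨f₁, f1, g1⟩ := H _ tc_lo tc_hi pr ν _ ω₁ md.mn w1 M R b s m Z co hco' s1 c1
    (fun y hy => ⟨(c0 y hy).1, c2 y hy⟩) hμ
  obtain ⟨f₂, f2, g2⟩ := H 1 (by norm_num) le_rfl _ ν _ ω₂ mo w2 M R b s m Z co hco' s1 c1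
    (fun y hy => ⟨(c0 y hy).2, c2 y hy⟩) hμ
  have p1 : ∀ y, 0 ≤ f₁ y := fun y => (w1.rng _).1.trans (f1 y (co y) (by simp [zd]))
  have p2 : ∀ y, 0 ≤ f₂ y := fun y => (w2.rng _).1.trans (f2 y (co y) (by simp [zd]))
  refine ⟨fun y => 2 * Q * C₄ * C₂ * (f₁ y + f₂ y), fun y hy => ⟨by
    have := p1 y; have := p2 y; positivity, fun φ hφ => ?_⟩, ?_⟩
  · have d0 := (hZ y hy).2
    obtain ⟨u, w, hp, -, hl, hu⟩ := H₁ M R B r b hs hR hb.1 s₁ ((N + 1) * (s₁ + 3)) (by omega)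
      (by omega) (by omega) (by omega) (by omega) (by omega) (by omega)
      (fun f hf => hF f (by omega)) φ fun t ht => hφ t (by
        have := tdist_triangle t.1 b y
        rw [tdist_comm b y] at this
        omega)
    set A := l2sq (ball y (Q * ρ)) φ with hA
    have d1 : l2sq (ball b (s₁ + 1)) φ ≤ A :=
      sum_le_sum_of_subset_of_nonneg (fun t ht => G.mem_ball.2 (by
        have := tdist_triangle t b y
        have := G.mem_ball.1 ht
        rw [tdist_comm b y] at *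
        omega)) fun _ _ _ => sum_nonneg fun _ _ => sq_nonneg _
    have d2 : (0 : ℝ) < s₁ := by exact_mod_cast (by omega : 0 < s₁)
    have d3 : 0 ≤ A := l2sq_nonneg _ _
    have d4 : 0 ≤ C₂ * A / s₁ := by positivity
    have d5 := H₄ M R b φ u w (co y) s s₁ (C₂ * A / s₁ * (f₁ y + f₂ y)) hp
      (by rw [hco]; omega) hl fun v hv => by
        have e1 : zd v 0 ≤ k * ρ := by
          have := hco y
          simp only [zd, Prod.fst_zero, Prod.snd_zero, sub_zero] at hv this ⊢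
          omega
        obtain ⟨e2, e3⟩ := bar_bound (S := C₂ * A / s₁) hp he w1 w2 (by omega) (by omega)
          (fun x hx => by
            have := mul_le_mul_of_nonneg_left d1 (zero_le_one.trans hC₂)
            rw [le_div_iff₀ d2, le_div_iff₀ d2]
            exact ⟨(hu x (by omega)).1.trans this, (hu x (by omega)).2.trans this⟩) e1
        have e4 := hp.le v 0 (by omega)
        rw [cn_zero, sub_zero] at e4
        have e5 := mul_le_mul_of_nonneg_left (f1 y v (by omega)) d4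
        have e6 := mul_le_mul_of_nonneg_left (f2 y v (by omega)) d4
        have e7 := mul_nonneg d4 (p1 y)
        have e8 := mul_nonneg d4 (p2 y)
        rw [mul_add, abs_le]
        constructor <;> linarith
    rw [hco'] at d5
    have d6 : (ρ : ℝ) ≤ s₁ := by exact_mod_cast (by omega : ρ ≤ s₁)
    have d7 : (1 : ℝ) ≤ s := by exact_mod_cast s1
    have d8 := add_nonneg (p1 y) (p2 y)
    push_cast
    calc _ ≤ C₄ * (2 * s) * (C₂ * A / s₁ * (f₁ y + f₂ y)) * (Q * s₁) := by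
          refine mul_le_mul (d5.trans ?_) (by gcongr) (by positivity) (by positivity)
          gcongr
          linarith
      _ = _ := by field_simp
  · rw [← mul_sum, sum_add_distrib]
    have h1 := Nat.le_ceil (4 * Q * C₄ * C₂ * C)
    calc _ ≤ 2 * Q * C₄ * C₂ * (C * m + C * m) := by gcongr
      _ = 4 * Q * C₄ * C₂ * C * m := by ring
      _ ≤ _ := by gcongr

end Vale.Agent.P144L.S
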