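import Vale.Agent.P144L.Defs2
import Vale.Agent.P144D.B.Tele

/-!
Rank one for all fields at one point, with individual constants.
-/

namespace Vale.Agent.P144L.S

open Finset Matrix Vale.Agent.P144Z Vale.Agent.P144Z.Tele

variable {M : ℕ} [NeZero M]

theorem rk_min {A : Gauge M} {ℓ ℓ' r : ℕ} {c η : ℝ} {y : Tor M} (h : RkA A ℓ ℓ' r c η y) :
    RkA A ℓ ℓ' r c (min η c) y := by
  rcases le_total η c with h1 | h1
  · rwa [min_eq_left h1]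
  · rw [min_eq_right h1]
    obtain ⟨u, hu⟩ := h
    exact ⟨u, fun w => ⟨(hu w).1, 0, by rw [zero_smul, sub_zero]; exact (hu w).1⟩⟩

theorem rk_pt {A : Gauge M} {y : Tor M} {ℓ a s ρ : ℕ} {c C Ω W X δ K cc η : ℝ} (hℓ : 1 ≤ ℓ)
    (h1 : 11 * ℓ + 4 ≤ s) (h2 : s ≤ 12 * ℓ) (h3 : s ≤ ρ) (h4 : ρ ≤ a * ℓ) (h5 : (ρ : ℝ) ≤ K * ℓ)
    (hD : ∀ s : ℕ, 8 ≤ s → s ≤ a * ℓ → ∀ w, l2sq (ball y s) (Dm A *ᵥ w) * ((a * ℓ : ℕ) : ℝ) ^ 3 ≤
      C * s * hsq A (a * ℓ : ℕ) (ball y (a * ℓ)) w)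
    (hS : Solv A y 8 (a * ℓ) c) (hR : HomR A y s ρ Ω) (hW : InSz A y ρ (a * ℓ) W)
    (hX : ∀ w, l2sq (ball y (11 * ℓ)) w * (a : ℝ) ^ 2 ≤ X * hsq A (a * ℓ : ℕ) (ball y (a * ℓ)) w)
    (hC : 1 ≤ C) (hΩ : 0 ≤ Ω) (d1 : 14 * C ≤ δ * a) (d2 : c ^ 2 * C * K ^ 3 ≤ δ * a)
    (c1 : X + δ ≤ cc ^ 2) (c2 : 48 * a * Ω * W + 4 * Ω * δ + 3 * δ ≤ η ^ 2) :
    RkA A ℓ (a * ℓ) (11 * ℓ) cc η y := by
  obtain ⟨u, hu, hrk⟩ := hR
  refine ⟨u, fun w => ?_⟩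
  have e3 : 11 * ℓ ≤ a * ℓ := by omega
  have hl : (0 : ℝ) < ℓ := by exact_mod_cast hℓ
  have ha1 : 1 ≤ a := Nat.pos_of_ne_zero fun h => by rw [h] at e3; omega
  have ha : (1 : ℝ) ≤ a := by exact_mod_cast ha1
  have hρ : (0 : ℝ) < ρ := by exact_mod_cast (by omega : 0 < ρ)
  have r2 : (s : ℝ) ≤ 12 * ℓ := by exact_mod_cast h2
  have r3 : (s : ℝ) ≤ ρ := by exact_mod_cast h3
  have t1 := hD (11 * ℓ) (by omega) e3 w
  have t3 := hD ρ (by omega) h4 w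
  have t2 := hW w
  have t0 := hX w
  have tm : ∀ k, k < 5 → ((a * ℓ : ℕ) : ℝ) ^ (2 * k) *
    l2sq (ball y (a * ℓ)) ((Dm A ^ k) *ᵥ w) ≤ _ := fun k hk => term_le A _ _ w hk
  have hH0 := RN.hsq_nonneg A (a * ℓ : ℕ) (ball y (a * ℓ)) w
  generalize hsq A (a * ℓ : ℕ) (ball y (a * ℓ)) w = H at t0 t1 t2 t3 tm hH0 ⊢
  push_cast at t1 t2 t3 tm ⊢
  have tk : ∀ k, 1 ≤ k → k < 4 → (ℓ : ℝ) ^ (2 * (k + 1)) *
      l2sq (ball y (11 * ℓ)) ((Dm A ^ (k + 1)) *ᵥ w) * a ^ 3 ≤ C * H := fun k hk hk4 => by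
    have f1 := tm (k + 1) (by omega)
    have f2 := E4.l2sq_mono (E3.ball_mono y e3) ((Dm A ^ (k + 1)) *ᵥ w)
    have f3 := E4.l2sq_nonneg (ball y (11 * ℓ)) ((Dm A ^ (k + 1)) *ᵥ w)
    have f4 : (a : ℝ) ^ 3 ≤ a ^ (2 * (k + 1)) := pow_le_pow_right₀ ha (by omega)
    calc _ ≤ (ℓ : ℝ) ^ (2 * (k + 1)) * l2sq (ball y (a * ℓ)) ((Dm A ^ (k + 1)) *ᵥ w) *
          a ^ (2 * (k + 1)) := by gcongr; exact mul_nonneg (by positivity) (f3.trans f2)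
      _ = _ := by rw [mul_pow]; ring
      _ ≤ H := f1
      _ ≤ _ := le_mul_of_one_le_left hH0 hC
  have tail : (∑ k ∈ range 4, (ℓ : ℝ) ^ (2 * (k + 1)) *
      l2sq (ball y (11 * ℓ)) ((Dm A ^ (k + 1)) *ᵥ w)) * a ^ 3 ≤ 14 * C * H := by
    have f1 := tk 1 le_rfl (by norm_num)
    have f2 := tk 2 (by norm_num) (by norm_num)
    have f3 := tk 3 (by norm_num) (by norm_num)
    have f0 : (ℓ : ℝ) ^ (2 * (0 + 1)) * l2sq (ball y (11 * ℓ)) ((Dm A ^ (0 + 1)) *ᵥ w) * a ^ 3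
        ≤ 11 * (C * H) := by
      rw [zero_add, pow_one, mul_one]
      refine le_of_mul_le_mul_right ?_ hl
      linarith
    simp only [sum_range_succ, sum_range_zero, zero_add, add_mul] at f0 ⊢
    linarith
  set T := ∑ k ∈ range 4, (ℓ : ℝ) ^ (2 * (k + 1)) *
    l2sq (ball y (11 * ℓ)) ((Dm A ^ (k + 1)) *ᵥ w) with hTdef
  have tail1 : T * a ^ 2 ≤ δ * H := le_of_mul_le_mul_right (by
    have := mul_le_mul_of_nonneg_right d1 hH0
    linarith) (zero_lt_one.trans_le ha)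
  have fin : ∀ Y d e : ℝ, d ≤ e ^ 2 → Y * a ^ 2 ≤ d * H →
      Y * ((a : ℝ) * ℓ) ^ 2 ≤ e ^ 2 * (ℓ : ℝ) ^ 2 * H := fun Y d e h h' => by
    have := mul_le_mul_of_nonneg_right (h'.trans (mul_le_mul_of_nonneg_right h hH0))
      (sq_nonneg (ℓ : ℝ))
    linarith
  constructor
  · have f1 : hsq A ℓ (ball y (11 * ℓ)) w = T + l2sq (ball y (11 * ℓ)) w := by
      rw [hsq, sum_range_succ']; simp [hTdef]
    refine fin _ _ _ c1 ?_
    rw [f1]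
    linarith
  · obtain ⟨v, hv1, hv2⟩ := hS ρ (by omega) h4 (Dm A *ᵥ w)
    have hφ : Hom A y ρ (w - v) := fun s hs => by
      rw [mulVec_sub, Pi.sub_apply, hv2 s hs, sub_self]
    obtain ⟨t, ht⟩ := hrk _ hφ
    refine ⟨t, fin _ _ _ c2 ?_⟩
    have f1 : hsq A ℓ (ball y (11 * ℓ)) (w - t • u) = T + l2sq (ball y (11 * ℓ)) (w - t • u) := by
      rw [hsq, sum_range_succ']
      congr 1
      · refine sum_congr rfl fun k hk => ?_
        congr 1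
        refine E4.l2sq_congr fun s hs => ?_
        have := mem_range.1 hk
        rw [pow_succ, ← mulVec_mulVec, ← mulVec_mulVec]
        refine Dm_local A k (fun s' hs' => ?_) s (E3.mem_ball.1 hs)
        rw [mulVec_sub, mulVec_smul, Pi.sub_apply, Pi.smul_apply, hu s' (by omega), smul_zero,
          sub_zero]
      · simp
    have v2 : l2sq univ v * a ^ 2 ≤ δ * H := by
      have g1 := mul_le_mul_of_nonneg_right hv1 (by positivity : (0 : ℝ) ≤ ((a : ℝ) * ℓ) ^ 3)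
      have g2 := mul_le_mul_of_nonneg_left t3 (by positivity : (0 : ℝ) ≤ c ^ 2 * ρ ^ 2)
      have g3 : (ρ : ℝ) ^ 3 ≤ (K * ℓ) ^ 3 := pow_le_pow_left₀ hρ.le h5 3
      have g4 := mul_le_mul_of_nonneg_left g3 (by positivity : 0 ≤ c ^ 2 * C * H)
      have g5 := mul_le_mul_of_nonneg_right d2 (by positivity : 0 ≤ H * (ℓ : ℝ) ^ 3)
      refine le_of_mul_le_mul_right ?_ (by positivity : (0 : ℝ) < a * ℓ ^ 3)
      linarith
    have w1 : l2sq (ball y ρ) (w - v) ≤ 2 * l2sq (ball y ρ) w + 2 * l2sq univ v := by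
      have g1 := E4.l2sq_add_le (ball y ρ) w ((-1 : ℝ) • v)
      rw [E4.l2sq_smul, neg_one_smul, ← sub_eq_add_neg] at g1
      linarith [E4.l2sq_mono (subset_univ (ball y ρ)) v]
    have w2 : l2sq (ball y s) (w - v - t • u) * a ^ 2 ≤ (24 * a * Ω * W + 2 * Ω * δ) * H := by
      refine le_of_mul_le_mul_right ?_ hρ
      have n1 := E4.l2sq_nonneg (ball y ρ) w
      have n2 := E4.l2sq_nonneg univ v
      have g1 := mul_le_mul_of_nonneg_right (ht.trans (mul_le_mul_of_nonneg_left w1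
        (by positivity))) (sq_nonneg (a : ℝ))
      have g2 := mul_le_mul_of_nonneg_left r2 (by positivity : 0 ≤ Ω * l2sq (ball y ρ) w * a ^ 2)
      have g3 := mul_le_mul_of_nonneg_left t2 (by positivity : 0 ≤ Ω * a)
      have g4 := mul_le_mul_of_nonneg_left r3 (by positivity : 0 ≤ Ω * l2sq univ v * a ^ 2)
      have g5 := mul_le_mul_of_nonneg_left v2 (by positivity : 0 ≤ Ω * ρ)
      linarith
    have w3 : l2sq (ball y (11 * ℓ)) (w - t • u) ≤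
        2 * l2sq (ball y s) (w - v - t • u) + 2 * l2sq univ v := by
      have g1 := E4.l2sq_add_le (ball y s) (w - v - t • u) v
      have g2 : w - v - t • u + v = w - t • u := by abel
      rw [g2] at g1
      linarith [E4.l2sq_mono (subset_univ (ball y s)) v,
        E4.l2sq_mono (E3.ball_mono y (show 11 * ℓ ≤ s by omega)) (w - t • u)]
    have w4 := mul_le_mul_of_nonneg_right w3 (sq_nonneg (a : ℝ))
    rw [f1]
    linarith

end Vale.Agent.P144L.S
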